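import Mathlib

namespace Vale.Agent.H23.Moat

lemma norm_le_of_irreducible {z : GaussianInt} (hz : Irreducible z) {p : ℕ} (hp : p.Prime)
    (h : (p : ℤ) ∣ z.norm) : z.norm ≤ (p : ℤ) ^ 2 := by
  have hpz : (p : GaussianInt) ≠ 0 := by exact_mod_cast hp.ne_zero
  have hnp : (p : GaussianInt).norm = (p : ℤ) ^ 2 := by
    rw [Zsqrtd.norm_natCast]; ring
  have hu : ¬ IsUnit (p : GaussianInt) := by
    intro hu
    rw [← Zsqrtd.norm_eq_one_iff, hnp] at hu
    have h1 : ((p : ℤ) ^ 2).natAbs = p ^ 2 := by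
      rw [Int.natAbs_pow, Int.natAbs_natCast]
    rw [h1] at hu
    have := hp.one_lt
    nlinarith
  obtain ⟨π, hπ, hd⟩ := WfDvdMonoid.exists_irreducible_factor hu hpz
  have hprime : Prime π := hπ.prime
  have h1 : π ∣ z * star z := by
    rw [← Zsqrtd.norm_eq_mul_conj]
    obtain ⟨k, hk⟩ := h
    rw [hk]
    push_cast
    exact hd.mul_right _
  have hπn : π.norm ≤ (p : ℤ) ^ 2 := by
    obtain ⟨t, ht⟩ := hd
    have h2 : (p : ℤ) ^ 2 = π.norm * t.norm := by rw [← hnp, ht, Zsqrtd.norm_mul]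
    have h3 : π.norm ∣ (p : ℤ) ^ 2 := ⟨_, h2⟩
    exact Int.le_of_dvd (by have := hp.pos; positivity) h3
  have key : ∀ π' : GaussianInt, ¬ IsUnit π' → π' ∣ z → z.norm = π'.norm := by
    intro π' hnu hdiv
    obtain ⟨t, ht⟩ := hdiv
    rcases hz.isUnit_or_isUnit ht with h4 | h4
    · exact absurd h4 hnu
    · have h5 : t.norm = 1 := by
        have := Zsqrtd.norm_eq_one_iff.mpr h4
        have h6 : 0 ≤ t.norm := GaussianInt.norm_nonneg t
        omega
      rw [ht, Zsqrtd.norm_mul, h5, mul_one]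
  rcases hprime.dvd_or_dvd h1 with h2 | h2
  · rw [key π hπ.not_isUnit h2]; exact hπn
  · have h3 : star π ∣ z := by
      obtain ⟨t, ht⟩ := h2
      exact ⟨star t, by rw [← star_star z, ht, star_mul, mul_comm]⟩
    have h4 : ¬ IsUnit (star π) := by
      intro hu'
      have := hu'.star
      rw [star_star] at this
      exact hπ.not_isUnit this
    rw [key (star π) h4 h3, Zsqrtd.norm_conj]; exact hπn

/-- a short integer vector almost orthogonal to `(A, B)` -/
lemma dirichlet_aux {A B : ℝ} (hAB : A ^ 2 + B ^ 2 = 1) (h : |A| ≤ |B|) {Q : ℕ} (hQ : 0 < Q) :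
    ∃ k j : ℤ, |A * k + B * j| ≤ 1 / Q ∧ 1 / 2 ≤ |A * j - B * k| ∧ |A * j - B * k| ≤ 2 * Q + 1 := by
  have hB : 0 < |B| := by
    by_contra hB
    push Not at hB
    have h1 : |B| = 0 := le_antisymm hB (abs_nonneg _)
    have h2 : |A| = 0 := le_antisymm (h.trans hB) (abs_nonneg _)
    rw [abs_eq_zero] at h1 h2
    rw [h1, h2] at hAB
    norm_num at hAB
  have hB0 : B ≠ 0 := abs_pos.mp hB
  have hB1 : |B| ≤ 1 := by
    rw [← sq_le_one_iff_abs_le_one]; nlinarith [sq_nonneg A]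
  have hA1 : |A| ≤ 1 := h.trans hB1
  obtain ⟨j, k, hk0, hkn, hkj⟩ := Real.exists_int_int_abs_mul_sub_le (-A / B) hQ
  have hQ1 : (1 : ℝ) ≤ Q := by exact_mod_cast hQ
  have hk1 : (1 : ℝ) ≤ k := by exact_mod_cast hk0
  have hkQ : (k : ℝ) ≤ Q := by exact_mod_cast hkn
  have e1 : A * k + B * j = -(B * (k * (-A / B) - j)) := by field_simp; ring
  have h1 : |A * k + B * j| ≤ 1 / (Q + 1) := by
    rw [e1, abs_neg, abs_mul]
    calc |B| * |k * (-A / B) - j| ≤ 1 * (1 / (Q + 1)) := by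
          apply mul_le_mul hB1 hkj (abs_nonneg _) zero_le_one
      _ = 1 / (Q + 1) := one_mul _
  refine ⟨k, j, h1.trans ?_, ?_, ?_⟩
  · apply one_div_le_one_div_of_le <;> linarith
  · -- (Ak+Bj)^2 + (Aj-Bk)^2 = k^2+j^2 ≥ 1
    have h2 : (A * k + B * j) ^ 2 + (A * j - B * k) ^ 2 = (k : ℝ) ^ 2 + (j : ℝ) ^ 2 := by
      have : (A * k + B * j) ^ 2 + (A * j - B * k) ^ 2 = (A ^ 2 + B ^ 2) * ((k : ℝ) ^ 2 + (j : ℝ) ^ 2) := by ring
      rw [this, hAB, one_mul]
    have h3 : (A * k + B * j) ^ 2 ≤ 1 / 4 := by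
      have h4 : |A * k + B * j| ≤ 1 / 2 := h1.trans (by
        apply one_div_le_one_div_of_le <;> linarith)
      have h5 := abs_nonneg (A * k + B * j)
      rw [← sq_abs]; nlinarith
    by_contra h6
    push Not at h6
    have h7 : (A * j - B * k) ^ 2 < 1 / 4 := by
      have h5 := abs_nonneg (A * j - B * k)
      rw [← sq_abs]; nlinarith
    nlinarith [sq_nonneg (j : ℝ)]
  · have h2 : |B * j| ≤ 1 + |A| * k := by
      have : B * j = (A * k + B * j) - A * k := by ring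
      rw [this]
      calc |(A * k + B * j) - A * k| ≤ |A * k + B * j| + |A * k| := abs_sub _ _
        _ ≤ 1 + |A| * k := by
          rw [abs_mul, abs_of_pos (by linarith : (0 : ℝ) < k)]
          have : (1 : ℝ) / (Q + 1) ≤ 1 := by
            rw [div_le_one (by linarith)]; linarith
          linarith
    have h3 : |A * j| ≤ |B * j| := by
      rw [abs_mul, abs_mul]
      exact mul_le_mul_of_nonneg_right h (abs_nonneg _)
    have h4 : |B * k| ≤ k := by
      rw [abs_mul, abs_of_pos (by linarith : (0 : ℝ) < k)]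
      nlinarith
    calc |A * j - B * k| ≤ |A * j| + |B * k| := abs_sub _ _
      _ ≤ (1 + |A| * k) + k := add_le_add (h3.trans h2) h4
      _ ≤ 2 * Q + 1 := by nlinarith

lemma dirichlet {A B : ℝ} (hAB : A ^ 2 + B ^ 2 = 1) {Q : ℕ} (hQ : 0 < Q) :
    ∃ k j : ℤ, |A * k + B * j| ≤ 1 / Q ∧ 1 / 2 ≤ A * j - B * k ∧ A * j - B * k ≤ 2 * Q + 1 := by
  obtain ⟨k, j, h1, h2, h3⟩ : ∃ k j : ℤ, |A * k + B * j| ≤ 1 / Q ∧ 1 / 2 ≤ |A * j - B * k| ∧
      |A * j - B * k| ≤ 2 * Q + 1 := by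
    rcases le_total |A| |B| with h | h
    · exact dirichlet_aux hAB h hQ
    · obtain ⟨k, j, h1, h2, h3⟩ := dirichlet_aux (A := B) (B := A) (by linarith) h hQ
      refine ⟨j, k, by rwa [add_comm], ?_, ?_⟩
      · rwa [abs_sub_comm]
      · rwa [abs_sub_comm]
  rcases le_total 0 (A * j - B * k) with h | h
  · rw [abs_of_nonneg h] at h2 h3
    exact ⟨k, j, h1, h2, h3⟩
  · rw [abs_of_nonpos h] at h2 h3
    refine ⟨-k, -j, ?_, ?_, ?_⟩
    · push_cast
      rw [show A * -(k : ℝ) + B * -(j : ℝ) = -(A * k + B * j) by ring, abs_neg]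
      exact h1
    · push_cast; linarith
    · push_cast; linarith

end Vale.Agent.H23.Moat
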