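import Mathlib
import Vale.Agent.H23.Moat.A

namespace Vale.Agent.H23.Moat

lemma prime_dvd_primorial {p M : ℕ} (hp : p.Prime) (h : p ≤ M) : p ∣ primorial M := by
  unfold primorial
  apply Finset.dvd_prod_of_mem
  simp only [Finset.mem_filter, Finset.mem_range]
  exact ⟨by omega, hp⟩

lemma numbound {M : ℕ} {Q R σ : ℝ} (hM : 1 ≤ M) (hQ1 : 1 ≤ Q) (hQ16 : Q ≤ 16 ^ M)
    (hER : R + 4 ≤ Q) (hσ2 : σ ≤ Q * (2 * Q + 1)) : 2 + (R + 2 + σ) ≤ (1024 : ℝ) ^ M := by
  have h4M : (4 : ℝ) ≤ 4 ^ M := by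
    calc (4 : ℝ) = 4 ^ 1 := by norm_num
      _ ≤ 4 ^ M := pow_le_pow_right₀ (by norm_num) hM
  have h1 : 2 + (R + 2 + σ) ≤ 4 * (Q * Q) := by nlinarith
  have h2 : Q * Q ≤ 16 ^ M * 16 ^ M := mul_le_mul hQ16 hQ16 (by linarith) (by positivity)
  have h3 : (1024 : ℝ) ^ M = 4 ^ M * (16 ^ M * 16 ^ M) := by
    rw [← mul_pow, ← mul_pow]; norm_num
  rw [h3]
  calc 2 + (R + 2 + σ) ≤ 4 * (Q * Q) := h1
    _ ≤ 4 ^ M * (16 ^ M * 16 ^ M) := mul_le_mul h4M h2 (by positivity) (by positivity)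

lemma nonirr {A B : ℝ} (hAB : A ^ 2 + B ^ 2 = 1) {M Q : ℕ}
    (hprim : ∀ p : ℕ, p.Prime → p ≤ M → p ∣ Q) {k j x' y' : ℤ} (z : GaussianInt)
    (e1 : z.re = x' + Q * k) (e2 : z.im = y' + Q * j)
    (hlow' : 4 ≤ x' * x' + y' * y') (hup' : x' * x' + y' * y' ≤ (M : ℤ))
    (hbig : (M : ℝ) < A * z.im - B * z.re) : ¬ Irreducible z := by
  intro hirr
  set N : ℕ := (x' * x' + y' * y').natAbs with hN
  have hNz : (N : ℤ) = x' * x' + y' * y' := by
    rw [hN]; exact Int.natAbs_of_nonneg (by omega)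
  have hN1 : N ≠ 1 := by omega
  have hp : (N.minFac).Prime := Nat.minFac_prime hN1
  have hpM : N.minFac ≤ M := (Nat.minFac_le (by omega)).trans (by omega)
  have hpQ : ((N.minFac : ℕ) : ℤ) ∣ (Q : ℤ) := by
    exact_mod_cast hprim _ hp hpM
  have hpN : ((N.minFac : ℕ) : ℤ) ∣ x' * x' + y' * y' := by
    rw [← hNz]; exact_mod_cast Nat.minFac_dvd N
  have hzn : z.norm = z.re * z.re + z.im * z.im := by
    rw [Zsqrtd.norm_def]; ring
  have hpz : ((N.minFac : ℕ) : ℤ) ∣ z.norm := by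
    have h5 : z.norm = (x' * x' + y' * y') +
        Q * (k * (2 * x' + Q * k) + j * (2 * y' + Q * j)) := by
      rw [hzn, e1, e2]; ring
    rw [h5]
    exact dvd_add hpN (hpQ.mul_right _)
  have h6 := norm_le_of_irreducible hirr hp hpz
  have h7 : (z.norm : ℝ) ≤ (M : ℝ) ^ 2 := by
    have h8 : (z.norm : ℝ) ≤ ((N.minFac : ℕ) : ℝ) ^ 2 := by exact_mod_cast h6
    have h9 : ((N.minFac : ℕ) : ℝ) ≤ M := by exact_mod_cast hpM
    have h10 : (0 : ℝ) ≤ ((N.minFac : ℕ) : ℝ) := Nat.cast_nonneg _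
    nlinarith
  have h11 : (z.norm : ℝ) = (A * z.re + B * z.im) ^ 2 + (A * z.im - B * z.re) ^ 2 := by
    rw [hzn]
    push_cast
    have : (A * z.re + B * z.im) ^ 2 + (A * z.im - B * z.re) ^ 2 =
      (A ^ 2 + B ^ 2) * ((z.re : ℝ) * z.re + z.im * z.im) := by ring
    rw [this, hAB, one_mul]
  rw [h11] at h7
  have hM0 : (0 : ℝ) ≤ M := Nat.cast_nonneg _
  nlinarith [sq_nonneg (A * z.re + B * z.im)]

lemma core {A B C : ℝ} (hAB : A ^ 2 + B ^ 2 = 1) {c R M Q : ℕ} (hC : |C| ≤ c)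
    (hMr' : (M : ℝ) = 5 * (R + c + 2) ^ 2) (hMr : (20 : ℝ) ≤ M) (hQMr : 2 * (M : ℝ) ≤ Q)
    (hprim : ∀ p : ℕ, p.Prime → p ≤ M → p ∣ Q) {k j : ℤ} {σ : ℝ}
    (hσ : σ = Q * (A * j - B * k)) (hσ1 : (Q : ℝ) / 2 ≤ σ)
    (hsmall : |A * (Q * k) + B * (Q * j)| ≤ 1) (z : GaussianInt)
    (hS : |A * z.im - B * z.re - (R + 2 + σ)| ≤ R) (hP : |A * z.re + B * z.im - C| ≤ R) :
    ¬ Irreducible z := by
  obtain ⟨x', e1⟩ : ∃ x' : ℤ, z.re = x' + Q * k := ⟨z.re - Q * k, by ring⟩
  obtain ⟨y', e2⟩ : ∃ y' : ℤ, z.im = y' + Q * j := ⟨z.im - Q * j, by ring⟩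
  have hzre : (z.re : ℝ) = x' + Q * k := by rw [e1]; push_cast; ring
  have hzim : (z.im : ℝ) = y' + Q * j := by rw [e2]; push_cast; ring
  obtain ⟨S', hS'⟩ : ∃ S' : ℝ, S' = A * y' - B * x' := ⟨_, rfl⟩
  obtain ⟨P', hP'⟩ : ∃ P' : ℝ, P' = A * x' + B * y' := ⟨_, rfl⟩
  have hSS : A * z.im - B * z.re = S' + σ := by rw [hzre, hzim, hS', hσ]; ring
  have hPP : A * z.re + B * z.im = P' + (A * (Q * k) + B * (Q * j)) := by
    rw [hzre, hzim, hP']; ring
  rw [hSS] at hS
  rw [hPP] at hP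
  rw [abs_le] at hS hP hsmall hC
  have hnorm' : ((x' * x' + y' * y' : ℤ) : ℝ) = P' ^ 2 + S' ^ 2 := by
    push_cast
    have : P' ^ 2 + S' ^ 2 = (A ^ 2 + B ^ 2) * ((x' : ℝ) * x' + y' * y') := by
      rw [hS', hP']; ring
    rw [this, hAB, one_mul]
  have hS1 : 2 ≤ S' := by linarith
  have hS2 : S' ≤ 2 * R + 2 := by linarith
  have hP1 : P' ≤ R + c + 2 := by linarith
  have hP2 : -(R + c + 2 : ℝ) ≤ P' := by linarith
  have hR0 : (0 : ℝ) ≤ R := Nat.cast_nonneg _
  have hc0 : (0 : ℝ) ≤ c := Nat.cast_nonneg _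
  have hlow : (4 : ℝ) ≤ ((x' * x' + y' * y' : ℤ) : ℝ) := by
    rw [hnorm']; nlinarith [sq_nonneg P']
  have hup : ((x' * x' + y' * y' : ℤ) : ℝ) ≤ M := by
    rw [hnorm', hMr']
    have h1 : P' ^ 2 ≤ (R + c + 2 : ℝ) ^ 2 := sq_le_sq' hP2 hP1
    have h2 : S' ^ 2 ≤ (2 * (R + c + 2 : ℝ)) ^ 2 := pow_le_pow_left₀ (by linarith) (by linarith) 2
    nlinarith
  have hlow' : 4 ≤ x' * x' + y' * y' := by exact_mod_cast hlow
  have hup' : x' * x' + y' * y' ≤ (M : ℤ) := by exact_mod_cast hup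
  refine nonirr hAB hprim z e1 e2 hlow' hup' ?_
  rw [hSS]
  linarith

lemma obstacle {A B : ℝ} (C : ℝ) (hAB : A ^ 2 + B ^ 2 = 1) (R : ℕ) :
    ∃ s : ℝ, (R : ℝ) + 2 ≤ s ∧ 2 + s ≤ (1024 : ℝ) ^ (5 * (R + ⌈|C|⌉₊ + 2) ^ 2) ∧
      ∀ z : GaussianInt, |A * z.im - B * z.re - s| ≤ R → |A * z.re + B * z.im - C| ≤ R →
        ¬ Irreducible z := by
  set c : ℕ := ⌈|C|⌉₊ with hc
  have hC : |C| ≤ c := Nat.le_ceil _
  set E : ℕ := R + c + 2 with hE
  set M : ℕ := 5 * E ^ 2 with hM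
  set Q : ℕ := 2 * M * primorial M with hQd
  have hE2 : 2 ≤ E := by omega
  have hM20 : 20 ≤ M := by rw [hM]; nlinarith
  have hME : E + 2 ≤ M := by rw [hM]; nlinarith
  have hprim : 0 < primorial M := primorial_pos M
  have hQM : 2 * M ≤ Q := by rw [hQd]; exact Nat.le_mul_of_pos_right _ hprim
  have hQ : 0 < Q := by omega
  obtain ⟨k, j, h1, h2, h3⟩ := dirichlet hAB hQ
  set σ : ℝ := Q * (A * j - B * k) with hσ
  have hQr : (0 : ℝ) < Q := by exact_mod_cast hQ
  have hσ1 : (Q : ℝ) / 2 ≤ σ := by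
    rw [hσ]; nlinarith
  have hσ2 : σ ≤ Q * (2 * Q + 1) := by
    rw [hσ]; exact mul_le_mul_of_nonneg_left h3 hQr.le
  have hsmall : |A * (Q * k) + B * (Q * j)| ≤ 1 := by
    have : A * (Q * k) + B * (Q * j) = Q * (A * k + B * j) := by ring
    rw [this, abs_mul, abs_of_pos hQr]
    calc (Q : ℝ) * |A * k + B * j| ≤ Q * (1 / Q) := mul_le_mul_of_nonneg_left h1 hQr.le
      _ = 1 := by field_simp
  have hMr : (20 : ℝ) ≤ M := by exact_mod_cast hM20
  have hQMr : 2 * (M : ℝ) ≤ Q := by exact_mod_cast hQM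
  refine ⟨R + 2 + σ, ?_, ?_, ?_⟩
  · linarith
  · have hQ16 : (Q : ℝ) ≤ 16 ^ M := by
      have h4 : Q ≤ 16 ^ M := by
        have h5 : primorial M ≤ 4 ^ M := primorial_le_four_pow M
        have h6 : 2 * M ≤ 4 ^ M := by
          have h7 : M < 2 ^ M := Nat.lt_two_pow_self
          have h8 : 2 ≤ 2 ^ M := by
            calc 2 = 2 ^ 1 := by norm_num
              _ ≤ 2 ^ M := Nat.pow_le_pow_right (by norm_num) (by omega)
          calc 2 * M ≤ 2 ^ M * 2 ^ M := Nat.mul_le_mul h8 h7.le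
            _ = 4 ^ M := by rw [← mul_pow]; norm_num
        calc Q ≤ 4 ^ M * 4 ^ M := Nat.mul_le_mul h6 h5
          _ = 16 ^ M := by rw [← mul_pow]; norm_num
      exact_mod_cast h4
    have hER : (R : ℝ) + 4 ≤ Q := by
      have : R + 4 ≤ Q := by omega
      exact_mod_cast this
    have hQ1 : (1 : ℝ) ≤ Q := by linarith
    exact numbound (by omega) hQ1 hQ16 hER hσ2
  · intro z hS hP
    exact core hAB hC (by rw [hM, hE]; push_cast; ring) hMr hQMr
      (fun p hp hpM => (prime_dvd_primorial hp hpM).mul_left (2 * M)) hσ hσ1 hsmall z hS hP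

/-- distance in the plane of two Gaussian integers -/
noncomputable def gd (z w : GaussianInt) : ℝ :=
  √(((z.re - w.re : ℤ) : ℝ) ^ 2 + ((z.im - w.im : ℤ) : ℝ) ^ 2)

lemma abs_sub_le_gd {A B : ℝ} (hAB : A ^ 2 + B ^ 2 = 1) (z w : GaussianInt) :
    |(A * z.im - B * z.re) - (A * w.im - B * w.re)| ≤ gd z w := by
  apply Real.le_sqrt_of_sq_le
  rw [sq_abs]
  push_cast
  set dx : ℝ := z.re - w.re
  set dy : ℝ := z.im - w.im
  have e : (A * z.im - B * z.re) - (A * w.im - B * w.re) = A * dy - B * dx := by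
    simp only [dx, dy]; ring
  rw [e]
  have : dx ^ 2 + dy ^ 2 - (A * dy - B * dx) ^ 2 = (A * dx + B * dy) ^ 2 := by
    have : dx ^ 2 + dy ^ 2 = (A ^ 2 + B ^ 2) * (dx ^ 2 + dy ^ 2) := by rw [hAB, one_mul]
    rw [this]; ring
  nlinarith [sq_nonneg (A * dx + B * dy)]

lemma no_upward {A B C D : ℝ} (hAB : A ^ 2 + B ^ 2 = 1) {z : ℕ → GaussianInt}
    (hirr : ∀ n, Irreducible (z n)) (hD : ∀ n, gd (z n) (z (n + 1)) ≤ D)
    (hreg : ∀ n, |A * (z n).re + B * (z n).im - C| ≤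
      1 / 12 * √(Real.log (2 + |A * (z n).im - B * (z n).re|)))
    (hunb : ∀ T : ℝ, ∃ n, T < A * (z n).im - B * (z n).re) : False := by
  set S : ℕ → ℝ := fun n => A * (z n).im - B * (z n).re with hS
  set c : ℕ := ⌈|C|⌉₊ with hc
  set R : ℕ := ⌈D⌉₊ + c + ⌈|S 0|⌉₊ + 3 with hR
  obtain ⟨s, hs1, hs2, hs3⟩ := obstacle C hAB R
  have hDR : D ≤ R := (Nat.le_ceil D).trans (by exact_mod_cast (by omega : ⌈D⌉₊ ≤ R))
  have hS0 : S 0 < s := by
    have h1 : |S 0| ≤ R := (Nat.le_ceil _).trans (by exact_mod_cast (by omega : ⌈|S 0|⌉₊ ≤ R))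
    have h2 := le_abs_self (S 0)
    linarith
  have hex : ∃ n, s ≤ S n := by
    obtain ⟨n, hn⟩ := hunb s
    exact ⟨n, hn.le⟩
  classical
  have hn := Nat.find_spec hex
  have hmin := fun m (hm : m < Nat.find hex) => Nat.find_min hex hm
  obtain ⟨m, hm⟩ : ∃ m, Nat.find hex = m + 1 := by
    refine Nat.exists_eq_succ_of_ne_zero ?_
    intro h0
    rw [h0] at hn
    linarith
  rw [hm] at hn
  have hlt : S m < s := by
    have := hmin m (by omega)
    push Not at this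
    exact this
  have hstep : |S m - S (m + 1)| ≤ D := (abs_sub_le_gd hAB _ _).trans (hD m)
  rw [abs_le] at hstep
  have hSm : |S m - s| ≤ R := by
    rw [abs_le]; constructor <;> linarith
  have hSpos : 0 ≤ S m := by linarith
  apply hs3 (z m) hSm _ (hirr m)
  refine (hreg m).trans ?_
  have e1 : |A * (z m).im - B * (z m).re| = S m := abs_of_nonneg hSpos
  rw [e1]
  set M : ℕ := 5 * (R + c + 2) ^ 2 with hM
  have hlog : Real.log (2 + S m) ≤ M * 7 := by
    calc Real.log (2 + S m) ≤ Real.log ((1024 : ℝ) ^ M) :=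
          Real.log_le_log (by linarith) (by linarith)
      _ = M * Real.log 1024 := by rw [Real.log_pow]
      _ ≤ M * 7 := by
          apply mul_le_mul_of_nonneg_left _ (Nat.cast_nonneg _)
          have : (1024 : ℝ) = 2 ^ 10 := by norm_num
          rw [this, Real.log_pow]
          have := Real.log_two_lt_d9
          push_cast
          linarith
  have hMR : (M : ℝ) * 7 ≤ (12 * R) ^ 2 := by
    have h1 : R + c + 2 ≤ 2 * R := by omega
    have h2 : M * 7 ≤ (12 * R) ^ 2 := by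
      rw [hM]
      calc 5 * (R + c + 2) ^ 2 * 7 ≤ 5 * (2 * R) ^ 2 * 7 := by gcongr
        _ ≤ (12 * R) ^ 2 := by nlinarith [sq_nonneg R]
    exact_mod_cast h2
  have hsq : √(Real.log (2 + S m)) ≤ 12 * R := by
    rw [Real.sqrt_le_left (by positivity)]
    linarith
  linarith

lemma bounded_finite (K : ℤ) :
    {z : GaussianInt | |z.re| ≤ K ∧ |z.im| ≤ K}.Finite := by
  have h : {z : GaussianInt | |z.re| ≤ K ∧ |z.im| ≤ K} ⊆
      (fun p : ℤ × ℤ => (⟨p.1, p.2⟩ : GaussianInt)) '' (Set.Icc (-K) K ×ˢ Set.Icc (-K) K) := by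
    intro z hz
    refine ⟨(z.re, z.im), ⟨abs_le.mp hz.1, abs_le.mp hz.2⟩, rfl⟩
  exact ((Set.finite_Icc _ _).prod (Set.finite_Icc _ _)).image _ |>.subset h

theorem no_path {A B C D : ℝ} (hAB : A ^ 2 + B ^ 2 = 1) {z : ℕ → GaussianInt}
    (hinj : Function.Injective z)
    (hirr : ∀ n, Irreducible (z n)) (hD : ∀ n, gd (z n) (z (n + 1)) ≤ D)
    (hreg : ∀ n, |A * (z n).re + B * (z n).im - C| ≤
      1 / 12 * √(Real.log (2 + |A * (z n).im - B * (z n).re|))) : False := by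
  by_cases hup : ∀ T : ℝ, ∃ n, T < A * (z n).im - B * (z n).re
  · exact no_upward hAB hirr hD hreg hup
  by_cases hdown : ∀ T : ℝ, ∃ n, A * (z n).im - B * (z n).re < T
  · refine no_upward (A := -A) (B := -B) (C := -C) (by nlinarith) hirr hD ?_ ?_
    · intro n
      have := hreg n
      rw [show -A * ((z n).re : ℝ) + -B * (z n).im - -C =
        -(A * (z n).re + B * (z n).im - C) by ring, abs_neg,
        show -A * ((z n).im : ℝ) - -B * (z n).re = -(A * (z n).im - B * (z n).re) by ring, abs_neg]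
      exact this
    · intro T
      obtain ⟨n, hn⟩ := hdown (-T)
      exact ⟨n, by linarith⟩
  push Not at hup hdown
  obtain ⟨T1, h1⟩ := hup
  obtain ⟨T2, h2⟩ := hdown
  set T : ℝ := max |T1| |T2| with hT
  have hST : ∀ n, |A * (z n).im - B * (z n).re| ≤ T := by
    intro n
    rw [abs_le]
    constructor
    · have := neg_abs_le T2
      have := le_max_right |T1| |T2|
      have := h2 n
      linarith
    · have := le_abs_self T1
      have := le_max_left |T1| |T2|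
      have := h1 n
      linarith
  have hT0 : 0 ≤ T := (abs_nonneg _).trans (hST 0)
  set W : ℝ := 1 / 12 * √(Real.log (2 + T)) with hW
  have hPW : ∀ n, |A * (z n).re + B * (z n).im| ≤ W + |C| := by
    intro n
    have h3 : |A * (z n).re + B * (z n).im - C| ≤ W := by
      refine (hreg n).trans ?_
      rw [hW]
      apply mul_le_mul_of_nonneg_left _ (by norm_num)
      apply Real.sqrt_le_sqrt
      apply Real.log_le_log (by have := abs_nonneg (A * (z n).im - B * (z n).re); linarith)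
      linarith [hST n]
    calc |A * (z n).re + B * (z n).im| = |(A * (z n).re + B * (z n).im - C) + C| := by
          congr 1; ring
      _ ≤ |A * (z n).re + B * (z n).im - C| + |C| := abs_add_le _ _
      _ ≤ W + |C| := by linarith
  set K : ℤ := ⌈T + (W + |C|)⌉ with hK
  have hA1 : |A| ≤ 1 := by
    rw [← sq_le_one_iff_abs_le_one]; nlinarith [sq_nonneg B]
  have hB1 : |B| ≤ 1 := by
    rw [← sq_le_one_iff_abs_le_one]; nlinarith [sq_nonneg A]
  have hmem : ∀ n, z n ∈ {z : GaussianInt | |z.re| ≤ K ∧ |z.im| ≤ K} := by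
    intro n
    have e1 : ((z n).re : ℝ) = A * (A * (z n).re + B * (z n).im) - B * (A * (z n).im - B * (z n).re) := by
      have : A * (A * ((z n).re : ℝ) + B * (z n).im) - B * (A * (z n).im - B * (z n).re) =
        (A ^ 2 + B ^ 2) * (z n).re := by ring
      rw [this, hAB, one_mul]
    have e2 : ((z n).im : ℝ) = B * (A * (z n).re + B * (z n).im) + A * (A * (z n).im - B * (z n).re) := by
      have : B * (A * ((z n).re : ℝ) + B * (z n).im) + A * (A * (z n).im - B * (z n).re) =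
        (A ^ 2 + B ^ 2) * (z n).im := by ring
      rw [this, hAB, one_mul]
    have h3 := hST n
    have h4 := hPW n
    have h5 : |((z n).re : ℝ)| ≤ T + (W + |C|) := by
      rw [e1]
      refine (abs_sub _ _).trans ?_
      rw [abs_mul, abs_mul]
      nlinarith [abs_nonneg A, abs_nonneg B, abs_nonneg (A * ((z n).re : ℝ) + B * (z n).im),
        abs_nonneg (A * ((z n).im : ℝ) - B * (z n).re)]
    have h6 : |((z n).im : ℝ)| ≤ T + (W + |C|) := by
      rw [e2]
      refine (abs_add_le _ _).trans ?_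
      rw [abs_mul, abs_mul]
      nlinarith [abs_nonneg A, abs_nonneg B, abs_nonneg (A * ((z n).re : ℝ) + B * (z n).im),
        abs_nonneg (A * ((z n).im : ℝ) - B * (z n).re)]
    constructor
    · have : ((|(z n).re| : ℤ) : ℝ) ≤ K := by
        push_cast; exact h5.trans (Int.le_ceil _)
      exact_mod_cast this
    · have : ((|(z n).im| : ℤ) : ℝ) ≤ K := by
        push_cast; exact h6.trans (Int.le_ceil _)
      exact_mod_cast this
  exact (Set.infinite_range_of_injective hinj)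
    ((bounded_finite K).subset (Set.range_subset_iff.mpr hmem))

theorem no_path_bounded {A B C D W : ℝ} (hAB : A ^ 2 + B ^ 2 = 1) {z : ℕ → GaussianInt}
    (hinj : Function.Injective z)
    (hirr : ∀ n, Irreducible (z n)) (hD : ∀ n, gd (z n) (z (n + 1)) ≤ D)
    (hreg : ∀ n, |A * (z n).re + B * (z n).im - C| ≤ W) : False := by
  set T : ℝ := Real.exp ((12 * W) ^ 2) with hT
  have hW0 : 0 ≤ W := (abs_nonneg _).trans (hreg 0)
  have hT0 : 0 < T := Real.exp_pos _
  have hA1 : |A| ≤ 1 := by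
    rw [← sq_le_one_iff_abs_le_one]; nlinarith [sq_nonneg B]
  have hB1 : |B| ≤ 1 := by
    rw [← sq_le_one_iff_abs_le_one]; nlinarith [sq_nonneg A]
  have hPW : ∀ n, |A * (z n).re + B * (z n).im| ≤ W + |C| := by
    intro n
    calc |A * (z n).re + B * (z n).im| = |(A * (z n).re + B * (z n).im - C) + C| := by
          congr 1; ring
      _ ≤ |A * (z n).re + B * (z n).im - C| + |C| := abs_add_le _ _
      _ ≤ W + |C| := by linarith [hreg n]
  set K : ℤ := ⌈T + (W + |C|)⌉ with hK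
  have hfin : {n : ℕ | |A * (z n).im - B * (z n).re| ≤ T}.Finite := by
    apply Set.Finite.of_finite_image _ (hinj.injOn (s := {n : ℕ | |A * (z n).im - B * (z n).re| ≤ T}))
    apply (bounded_finite K).subset
    rintro _ ⟨n, hn, rfl⟩
    have h3 : |A * (z n).im - B * (z n).re| ≤ T := hn
    have e1 : ((z n).re : ℝ) = A * (A * (z n).re + B * (z n).im) - B * (A * (z n).im - B * (z n).re) := by
      have : A * (A * ((z n).re : ℝ) + B * (z n).im) - B * (A * (z n).im - B * (z n).re) =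
        (A ^ 2 + B ^ 2) * (z n).re := by ring
      rw [this, hAB, one_mul]
    have e2 : ((z n).im : ℝ) = B * (A * (z n).re + B * (z n).im) + A * (A * (z n).im - B * (z n).re) := by
      have : B * (A * ((z n).re : ℝ) + B * (z n).im) + A * (A * (z n).im - B * (z n).re) =
        (A ^ 2 + B ^ 2) * (z n).im := by ring
      rw [this, hAB, one_mul]
    have h4 := hPW n
    have h5 : |((z n).re : ℝ)| ≤ T + (W + |C|) := by
      rw [e1]
      refine (abs_sub _ _).trans ?_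
      rw [abs_mul, abs_mul]
      nlinarith [abs_nonneg A, abs_nonneg B, abs_nonneg (A * ((z n).re : ℝ) + B * (z n).im),
        abs_nonneg (A * ((z n).im : ℝ) - B * (z n).re)]
    have h6 : |((z n).im : ℝ)| ≤ T + (W + |C|) := by
      rw [e2]
      refine (abs_add_le _ _).trans ?_
      rw [abs_mul, abs_mul]
      nlinarith [abs_nonneg A, abs_nonneg B, abs_nonneg (A * ((z n).re : ℝ) + B * (z n).im),
        abs_nonneg (A * ((z n).im : ℝ) - B * (z n).re)]
    constructor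
    · have : ((|(z n).re| : ℤ) : ℝ) ≤ K := by
        push_cast; exact h5.trans (Int.le_ceil _)
      exact_mod_cast this
    · have : ((|(z n).im| : ℤ) : ℝ) ≤ K := by
        push_cast; exact h6.trans (Int.le_ceil _)
      exact_mod_cast this
  obtain ⟨n0, hn0⟩ := hfin.bddAbove
  have hfar : ∀ n, T < |A * (z (n + (n0 + 1))).im - B * (z (n + (n0 + 1))).re| := by
    intro n
    by_contra h
    push Not at h
    have := hn0 h
    omega
  refine no_path (A := A) (B := B) (C := C) (D := D) hAB (z := fun n => z (n + (n0 + 1)))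
    (fun a b hab => by have := hinj hab; omega) (fun n => hirr _) (fun n => ?_) (fun n => ?_)
  · have := hD (n + (n0 + 1))
    rwa [show n + (n0 + 1) + 1 = n + 1 + (n0 + 1) by ring] at this
  · refine (hreg _).trans ?_
    have h1 := hfar n
    have h2 : (12 * W) ^ 2 ≤ Real.log (2 + |A * (z (n + (n0 + 1))).im - B * (z (n + (n0 + 1))).re|) := by
      rw [← Real.log_exp ((12 * W) ^ 2)]
      exact Real.log_le_log (Real.exp_pos _) (by linarith)
    have h3 : 12 * W ≤ √(Real.log (2 + |A * (z (n + (n0 + 1))).im - B * (z (n + (n0 + 1))).re|)) :=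
      Real.le_sqrt_of_sq_le h2
    show W ≤ 1 / 12 * √(Real.log (2 + |A * (z (n + (n0 + 1))).im - B * (z (n + (n0 + 1))).re|))
    linarith

end Vale.Agent.H23.Moat
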